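import Mathlib

/-!
Kirk's problem (the fixed point property for nonexpansive maps in reflexive Banach spaces):
the two definitions used by the hand-in.
-/

namespace Vale.Agent.Lib.P079

/-- A real normed space is reflexive if every continuous linear functional on its dual is the
evaluation at a point of the space, that is, the canonical map into the bidual is onto. -/
def Reflexive (X : Type*) [NormedAddCommGroup X] [NormedSpace ℝ X] : Prop :=
  ∀ Φ : StrongDual ℝ (StrongDual ℝ X), ∃ x : X, ∀ f : StrongDual ℝ X, Φ f = f x

/-- The fixed point property for nonexpansive maps: every nonexpansive self-map of a nonempty,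
closed, bounded, convex set has a fixed point. A self-map of the set `C` is given as a map
`T` of the whole space that maps `C` into `C`; only the values of `T` on `C` matter. -/
def FPP (X : Type*) [NormedAddCommGroup X] [NormedSpace ℝ X] : Prop :=
  ∀ C : Set X, C.Nonempty → IsClosed C → Bornology.IsBounded C → Convex ℝ C →
    ∀ T : X → X, Set.MapsTo T C C → (∀ a ∈ C, ∀ b ∈ C, ‖T a - T b‖ ≤ ‖a - b‖) →
      ∃ x ∈ C, T x = x

universe u

/-- Kirk's problem has a positive answer for the Banach spaces of the universe `u`: every
reflexive real Banach space has the fixed point property for nonexpansive maps. -/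
def KirkAll : Prop :=
  ∀ (X : Type u) [NormedAddCommGroup X] [NormedSpace ℝ X] [CompleteSpace X],
    Reflexive X → FPP X

/-- Every separable reflexive real Banach space (of the universe `u`) has the fixed point
property for nonexpansive maps. -/
def KirkSeparable : Prop :=
  ∀ (X : Type u) [NormedAddCommGroup X] [NormedSpace ℝ X] [CompleteSpace X]
    [TopologicalSpace.SeparableSpace X], Reflexive X → FPP X

/-- Every reflexive closed linear subspace of the space of bounded real sequences with the
supremum norm (the bounded continuous functions on the discrete space of natural numbers) has
the fixed point property for nonexpansive maps, in the inherited norm. -/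
def KirkSequences : Prop :=
  ∀ Y : Submodule ℝ (BoundedContinuousFunction ℕ ℝ),
    IsClosed (Y : Set (BoundedContinuousFunction ℕ ℝ)) → Reflexive Y → FPP Y

end Vale.Agent.Lib.P079
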