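import Mathlib
import Vale.Agent.Lib.P079.Defs

/-!
Transport of reflexivity and of the fixed point property along linear isometric equivalences,
and the linear isometric embedding of a separable normed space into the space of bounded real
sequences (norming functionals of a dense sequence).
-/

namespace Vale.Agent.Lib.P079

universe u v

section transport

variable {X : Type u} [NormedAddCommGroup X] [NormedSpace ℝ X]
variable {Y : Type v} [NormedAddCommGroup Y] [NormedSpace ℝ Y]

/-- Reflexivity passes along a linear isometric equivalence. -/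
theorem reflexive_of_equiv (e : X ≃ₗᵢ[ℝ] Y) (hX : Reflexive X) : Reflexive Y := by
  intro ψ
  obtain ⟨x, hx⟩ := hX (ψ.comp ((ContinuousLinearMap.compL ℝ Y X ℝ).flip
    (e.symm.toContinuousLinearEquiv : Y →L[ℝ] X)))
  refine ⟨e x, fun g => ?_⟩
  have hP : ((ContinuousLinearMap.compL ℝ Y X ℝ).flip
      (e.symm.toContinuousLinearEquiv : Y →L[ℝ] X)) (g.comp (e.toContinuousLinearEquiv : X →L[ℝ] Y))
      = g := by
    ext y
    simp
  have h1 : ψ (((ContinuousLinearMap.compL ℝ Y X ℝ).flip
      (e.symm.toContinuousLinearEquiv : Y →L[ℝ] X))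
        (g.comp (e.toContinuousLinearEquiv : X →L[ℝ] Y)))
      = (g.comp (e.toContinuousLinearEquiv : X →L[ℝ] Y)) x :=
    hx (g.comp (e.toContinuousLinearEquiv : X →L[ℝ] Y))
  rw [hP] at h1
  exact h1

/-- The fixed point property passes along a linear isometric equivalence. -/
theorem fpp_of_equiv (e : X ≃ₗᵢ[ℝ] Y) (hY : FPP Y) : FPP X := by
  intro C hCne hCcl hCbd hCconv T hT hne
  have h1 : (e '' C).Nonempty := hCne.image e
  have h2 : IsClosed (e '' C) := e.toHomeomorph.isClosed_image.mpr hCcl
  have h3 : Bornology.IsBounded (e '' C) := by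
    obtain ⟨R, hR⟩ := isBounded_iff_forall_norm_le.mp hCbd
    refine isBounded_iff_forall_norm_le.mpr ⟨R, ?_⟩
    rintro _ ⟨c, hc, rfl⟩
    rw [e.norm_map]
    exact hR c hc
  have h4 : Convex ℝ (e '' C) := by
    rintro _ ⟨a, ha, rfl⟩ _ ⟨b, hb, rfl⟩ s t hs ht hst
    exact ⟨s • a + t • b, hCconv ha hb hs ht hst, by rw [map_add, map_smul, map_smul]⟩
  have h5 : Set.MapsTo (fun y : Y => e (T (e.symm y))) (e '' C) (e '' C) := by
    rintro _ ⟨c, hc, rfl⟩
    refine ⟨T c, hT hc, ?_⟩
    show e (T c) = e (T (e.symm (e c)))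
    rw [e.symm_apply_apply]
  have h6 : ∀ a ∈ e '' C, ∀ b ∈ e '' C,
      ‖(fun y : Y => e (T (e.symm y))) a - (fun y : Y => e (T (e.symm y))) b‖ ≤ ‖a - b‖ := by
    rintro _ ⟨a, ha, rfl⟩ _ ⟨b, hb, rfl⟩
    show ‖e (T (e.symm (e a))) - e (T (e.symm (e b)))‖ ≤ ‖e a - e b‖
    rw [e.symm_apply_apply, e.symm_apply_apply, ← map_sub, ← map_sub, e.norm_map, e.norm_map]
    exact hne a ha b hb
  obtain ⟨y, ⟨c, hc, rfl⟩, hfix⟩ := hY _ h1 h2 h3 h4 _ h5 h6
  refine ⟨c, hc, ?_⟩
  have hfix' : e (T (e.symm (e c))) = e c := hfix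
  rw [e.symm_apply_apply] at hfix'
  exact e.injective hfix'

end transport

section embedding

variable (X : Type u) [NormedAddCommGroup X] [NormedSpace ℝ X]

/-- Every separable real normed space embeds linearly and isometrically into the space of
bounded real sequences with the supremum norm. -/
theorem exists_embedding_bounded_sequences [TopologicalSpace.SeparableSpace X] :
    ∃ J : X →ₗ[ℝ] BoundedContinuousFunction ℕ ℝ, ∀ x, ‖J x‖ = ‖x‖ := by
  have hd : DenseRange (TopologicalSpace.denseSeq X) := TopologicalSpace.denseRange_denseSeq X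
  choose f hf1 hf2 using fun n : ℕ => exists_dual_vector'' ℝ (TopologicalSpace.denseSeq X n)
  have hbound : ∀ (x : X) (n : ℕ), ‖f n x‖ ≤ ‖x‖ := by
    intro x n
    have h1 := (f n).le_of_opNorm_le (hf1 n) x
    rwa [one_mul] at h1
  refine ⟨{ toFun := fun x =>
              BoundedContinuousFunction.ofNormedAddCommGroupDiscrete (fun n => f n x) ‖x‖
                (hbound x)
            map_add' := ?_
            map_smul' := ?_ }, ?_⟩
  · intro x y
    ext n
    show f n (x + y) = f n x + f n y
    rw [map_add]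
  · intro c x
    ext n
    show f n (c • x) = c • f n x
    rw [map_smul]
  · intro x
    show ‖BoundedContinuousFunction.ofNormedAddCommGroupDiscrete (fun n => f n x) ‖x‖
      (hbound x)‖ = ‖x‖
    refine le_antisymm ((BoundedContinuousFunction.norm_le (norm_nonneg x)).mpr
      (fun n => hbound x n)) ?_
    refine le_of_forall_pos_le_add (fun ε hε => ?_)
    obtain ⟨n, hn⟩ := hd.exists_dist_lt x (half_pos hε)
    rw [dist_eq_norm] at hn
    have h1 : ‖f n x‖ ≤ ‖BoundedContinuousFunction.ofNormedAddCommGroupDiscrete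
        (fun n => f n x) ‖x‖ (hbound x)‖ :=
      (BoundedContinuousFunction.ofNormedAddCommGroupDiscrete (fun n => f n x) ‖x‖
        (hbound x)).norm_coe_le_norm n
    have h2 : f n (TopologicalSpace.denseSeq X n) = ‖TopologicalSpace.denseSeq X n‖ := by
      simpa using hf2 n
    have h3 : ‖f n (x - TopologicalSpace.denseSeq X n)‖ ≤ ‖x - TopologicalSpace.denseSeq X n‖ :=
      hbound _ n
    have h4 : f n x = f n (TopologicalSpace.denseSeq X n)
        + f n (x - TopologicalSpace.denseSeq X n) := by
      rw [← map_add, add_sub_cancel]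
    have h5 : ‖x‖ ≤ ‖TopologicalSpace.denseSeq X n‖ + ‖x - TopologicalSpace.denseSeq X n‖ := by
      have h6 := norm_add_le (TopologicalSpace.denseSeq X n) (x - TopologicalSpace.denseSeq X n)
      rwa [add_sub_cancel] at h6
    have h7 : ‖TopologicalSpace.denseSeq X n‖ ≤ ‖f n x‖ + ‖x - TopologicalSpace.denseSeq X n‖ := by
      have h8 : f n (TopologicalSpace.denseSeq X n)
          = f n x - f n (x - TopologicalSpace.denseSeq X n) := by
        rw [h4]
        ring
      rw [← h2, h8]
      rw [Real.norm_eq_abs] at h3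
      rw [Real.norm_eq_abs]
      have h10 := le_abs_self (f n x - f n (x - TopologicalSpace.denseSeq X n))
      have h11 := neg_abs_le (f n (x - TopologicalSpace.denseSeq X n))
      have h12 := le_abs_self (f n x)
      linarith
    linarith

end embedding

end Vale.Agent.Lib.P079
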