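import Mathlib
import Vale.Agent.Lib.P079.Defs

/-!
A countable set containing a given point that is invariant under a map and under rational
convex combinations; its closure is a separable closed convex invariant set.
-/

namespace Vale.Agent.Lib.P079

variable {X : Type*} [NormedAddCommGroup X] [NormedSpace ℝ X]

/-- The clamp of a real number to the unit interval. -/
noncomputable def clamp (s : ℝ) : ℝ := max 0 (min 1 s)

theorem clamp_nonneg (s : ℝ) : 0 ≤ clamp s := le_max_left _ _

theorem clamp_le_one (s : ℝ) : clamp s ≤ 1 := max_le zero_le_one (min_le_left _ _)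

theorem clamp_of_mem (s : ℝ) (h0 : 0 ≤ s) (h1 : s ≤ 1) : clamp s = s := by
  rw [clamp, min_eq_right h1, max_eq_right h0]

theorem continuous_clamp : Continuous clamp :=
  continuous_const.max (continuous_const.min continuous_id)

/-- The stages of the countable invariant set: start with the point `x0`, then add the images
under `T` and the convex combinations with clamped rational coefficients. -/
noncomputable def stage (T : X → X) (x0 : X) : ℕ → Set X
  | 0 => {x0}
  | n + 1 => stage T x0 n ∪ T '' stage T x0 n ∪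
      ⋃ q : ℚ, (fun p : X × X => (1 - clamp (q : ℝ)) • p.1 + clamp (q : ℝ) • p.2) ''
        (stage T x0 n ×ˢ stage T x0 n)

/-- The countable invariant set. -/
noncomputable def orb (T : X → X) (x0 : X) : Set X := ⋃ n, stage T x0 n

theorem stage_zero (T : X → X) (x0 : X) : stage T x0 0 = {x0} := rfl

theorem stage_succ (T : X → X) (x0 : X) (n : ℕ) :
    stage T x0 (n + 1) = stage T x0 n ∪ T '' stage T x0 n ∪
      ⋃ q : ℚ, (fun p : X × X => (1 - clamp (q : ℝ)) • p.1 + clamp (q : ℝ) • p.2) ''
        (stage T x0 n ×ˢ stage T x0 n) := rfl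

theorem stage_subset_succ (T : X → X) (x0 : X) (n : ℕ) :
    stage T x0 n ⊆ stage T x0 (n + 1) := by
  rw [stage_succ]
  exact Set.subset_union_left.trans Set.subset_union_left

theorem stage_mono (T : X → X) (x0 : X) : Monotone (stage T x0) :=
  monotone_nat_of_le_succ (stage_subset_succ T x0)

theorem stage_countable (T : X → X) (x0 : X) (n : ℕ) : (stage T x0 n).Countable := by
  induction n with
  | zero =>
    rw [stage_zero]
    exact Set.countable_singleton x0
  | succ n ih =>
    rw [stage_succ]
    exact (ih.union (ih.image T)).union (Set.countable_iUnion (fun q => (ih.prod ih).image _))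

theorem orb_countable (T : X → X) (x0 : X) : (orb T x0).Countable :=
  Set.countable_iUnion (stage_countable T x0)

theorem mem_orb_self (T : X → X) (x0 : X) : x0 ∈ orb T x0 :=
  Set.mem_iUnion.mpr ⟨0, by rw [stage_zero]; exact Set.mem_singleton x0⟩

theorem stage_subset (T : X → X) (x0 : X) (C : Set X) (hC : Convex ℝ C) (hT : Set.MapsTo T C C)
    (hx0 : x0 ∈ C) (n : ℕ) : stage T x0 n ⊆ C := by
  induction n with
  | zero =>
    rw [stage_zero]
    exact Set.singleton_subset_iff.mpr hx0
  | succ n ih =>
    rw [stage_succ]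
    refine Set.union_subset (Set.union_subset ih ?_) ?_
    · rintro _ ⟨a, ha, rfl⟩
      exact hT (ih ha)
    · refine Set.iUnion_subset (fun q => ?_)
      rintro _ ⟨p, hp, rfl⟩
      have hp1 : p.1 ∈ C := ih hp.1
      have hp2 : p.2 ∈ C := ih hp.2
      exact hC hp1 hp2 (sub_nonneg.mpr (clamp_le_one _)) (clamp_nonneg _) (by ring)

theorem orb_subset (T : X → X) (x0 : X) (C : Set X) (hC : Convex ℝ C) (hT : Set.MapsTo T C C)
    (hx0 : x0 ∈ C) : orb T x0 ⊆ C :=
  Set.iUnion_subset (stage_subset T x0 C hC hT hx0)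

theorem image_orb (T : X → X) (x0 : X) : T '' orb T x0 ⊆ orb T x0 := by
  rintro _ ⟨a, ha, rfl⟩
  obtain ⟨n, hn⟩ := Set.mem_iUnion.mp ha
  refine Set.mem_iUnion.mpr ⟨n + 1, ?_⟩
  rw [stage_succ]
  exact Or.inl (Or.inr ⟨a, hn, rfl⟩)

theorem combo_orb (T : X → X) (x0 : X) (a b : X) (ha : a ∈ orb T x0) (hb : b ∈ orb T x0)
    (q : ℚ) : (1 - clamp (q : ℝ)) • a + clamp (q : ℝ) • b ∈ orb T x0 := by
  obtain ⟨n, hn⟩ := Set.mem_iUnion.mp ha
  obtain ⟨m, hm⟩ := Set.mem_iUnion.mp hb
  have hn' : a ∈ stage T x0 (max n m) := stage_mono T x0 (le_max_left n m) hn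
  have hm' : b ∈ stage T x0 (max n m) := stage_mono T x0 (le_max_right n m) hm
  refine Set.mem_iUnion.mpr ⟨max n m + 1, ?_⟩
  rw [stage_succ]
  refine Or.inr (Set.mem_iUnion.mpr ⟨q, ?_⟩)
  exact ⟨(a, b), ⟨hn', hm'⟩, rfl⟩

/-- The closure of the countable invariant set is convex. -/
theorem convex_closure_orb (T : X → X) (x0 : X) : Convex ℝ (closure (orb T x0)) := by
  intro a ha b hb s t hs ht hst
  have hcont : Continuous (fun p : X × X × ℝ =>
      (1 - clamp p.2.2) • p.1 + clamp p.2.2 • p.2.1) := by
    have hc : Continuous (fun p : X × X × ℝ => clamp p.2.2) :=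
      continuous_clamp.comp (continuous_snd.comp continuous_snd)
    exact ((continuous_const.sub hc).smul continuous_fst).add
      (hc.smul (continuous_fst.comp continuous_snd))
  have hmem : ((a, b, t) : X × X × ℝ) ∈
      closure (orb T x0 ×ˢ (orb T x0 ×ˢ Set.range ((↑) : ℚ → ℝ))) := by
    rw [closure_prod_eq, closure_prod_eq, Rat.denseRange_cast.closure_range]
    exact ⟨ha, hb, Set.mem_univ t⟩
  have hmaps : Set.MapsTo (fun p : X × X × ℝ => (1 - clamp p.2.2) • p.1 + clamp p.2.2 • p.2.1)
      (orb T x0 ×ˢ (orb T x0 ×ˢ Set.range ((↑) : ℚ → ℝ))) (orb T x0) := by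
    rintro ⟨a', b', r⟩ ⟨ha', hb', ⟨q, rfl⟩⟩
    exact combo_orb T x0 a' b' ha' hb' q
  have hfin := map_mem_closure hcont hmem hmaps
  have ht1 : t ≤ 1 := by linarith
  have hs1 : s = 1 - t := by linarith
  have hfin' : (1 - clamp t) • a + clamp t • b ∈ closure (orb T x0) := hfin
  rw [clamp_of_mem t ht ht1] at hfin'
  rw [hs1]
  exact hfin'

/-- A map that is nonexpansive on a closed set containing the countable invariant set maps the
closure of that set into itself. -/
theorem mapsTo_closure_orb (T : X → X) (x0 : X) (C : Set X) (hCcl : IsClosed C)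
    (horb : orb T x0 ⊆ C) (hne : ∀ a ∈ C, ∀ b ∈ C, ‖T a - T b‖ ≤ ‖a - b‖) :
    Set.MapsTo T (closure (orb T x0)) (closure (orb T x0)) := by
  intro y hy
  have hlip : LipschitzOnWith 1 T C := by
    refine LipschitzOnWith.of_dist_le_mul (fun a ha b hb => ?_)
    rw [dist_eq_norm, dist_eq_norm, NNReal.coe_one, one_mul]
    exact hne a ha b hb
  have hyC : y ∈ C := closure_minimal horb hCcl hy
  have hcw : ContinuousWithinAt T (orb T x0) y := (hlip.continuousOn y hyC).mono horb
  exact closure_mono (image_orb T x0) (hcw.mem_closure_image hy)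

end Vale.Agent.Lib.P079
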