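import Mathlib
import Vale.Agent.Lib.P079.Defs

/-!
A closed subspace of a reflexive space is reflexive (Hahn-Banach separation and extension).
-/

namespace Vale.Agent.Lib.P079

variable {X : Type*} [NormedAddCommGroup X] [NormedSpace ℝ X]

/-- A continuous functional that is bounded above on a subspace vanishes on it. -/
theorem vanish_of_bounded_above (Y : Submodule ℝ X) (f : StrongDual ℝ X) (u : ℝ)
    (hf : ∀ a ∈ Y, f a < u) : ∀ a ∈ Y, f a = 0 := by
  intro a ha
  by_contra hne
  have h1 := hf (((u + 1) / f a) • a) (Y.smul_mem _ ha)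
  rw [map_smul, smul_eq_mul, div_mul_cancel₀ _ hne] at h1
  linarith

/-- The restriction of functionals to a subspace, as a continuous linear map. -/
noncomputable def restr (Y : Submodule ℝ X) : StrongDual ℝ X →L[ℝ] StrongDual ℝ Y :=
  (ContinuousLinearMap.compL ℝ Y X ℝ).flip Y.subtypeL

theorem restr_apply (Y : Submodule ℝ X) (f : StrongDual ℝ X) (y : Y) :
    restr Y f y = f (y : X) := rfl

/-- A closed subspace of a reflexive space is reflexive. -/
theorem reflexive_closed_subspace (hX : Reflexive X) (Y : Submodule ℝ X)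
    (hY : IsClosed (Y : Set X)) : Reflexive Y := by
  intro ψ
  obtain ⟨x, hx⟩ := hX (ψ.comp (restr Y))
  have hxf : ∀ f : StrongDual ℝ X, f x = ψ (restr Y f) := fun f => (hx f).symm
  have hxY : x ∈ Y := by
    by_contra hnot
    obtain ⟨f, u, hfu, hux⟩ := geometric_hahn_banach_closed_point Y.convex hY hnot
    have hzero : ∀ a ∈ Y, f a = 0 := vanish_of_bounded_above Y f u hfu
    have h0 : (0 : ℝ) < u := by
      have h2 := hfu 0 Y.zero_mem
      rwa [map_zero] at h2
    have hr : restr Y f = 0 := by
      ext y
      rw [restr_apply]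
      exact hzero y y.2
    have h3 := hxf f
    rw [hr, map_zero] at h3
    linarith
  refine ⟨⟨x, hxY⟩, fun g => ?_⟩
  obtain ⟨f, hfg, _⟩ := exists_extension_norm_eq Y g
  have hr : restr Y f = g := by
    ext y
    rw [restr_apply]
    exact hfg y
  rw [← hr, ← hxf f, restr_apply]

end Vale.Agent.Lib.P079
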