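import Mathlib
import Vale.Agent.Lib.P079.Defs
import Vale.Agent.Lib.P079.Subspace
import Vale.Agent.Lib.P079.Orbit

/-!
The separable reduction of Kirk's problem: if every separable reflexive Banach space has the
fixed point property for nonexpansive maps, then every reflexive Banach space has it.
-/

namespace Vale.Agent.Lib.P079

universe u

/-- If a subspace `Y` has the fixed point property, then nonexpansive self-maps of nonempty,
closed, bounded, convex sets lying inside `Y` have fixed points. -/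
theorem fixed_point_in_subspace {X : Type*} [NormedAddCommGroup X] [NormedSpace ℝ X]
    (Y : Submodule ℝ X) (hY : FPP Y) (D : Set X)
    (hDY : D ⊆ (Y : Set X)) (hDne : D.Nonempty) (hDcl : IsClosed D)
    (hDbd : Bornology.IsBounded D) (hDconv : Convex ℝ D)
    (T : X → X) (hT : Set.MapsTo T D D) (hne : ∀ a ∈ D, ∀ b ∈ D, ‖T a - T b‖ ≤ ‖a - b‖) :
    ∃ x ∈ D, T x = x := by
  classical
  have hTY : ∀ y : Y, (y : X) ∈ D →
      (((if h : T (y : X) ∈ Y then (⟨T (y : X), h⟩ : Y) else 0) : Y) : X) = T (y : X) := by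
    intro y hy
    have h : T (y : X) ∈ Y := hDY (hT hy)
    rw [dif_pos h]
  have h1 : ({y : Y | (y : X) ∈ D}).Nonempty := by
    obtain ⟨d, hd⟩ := hDne
    exact ⟨⟨d, hDY hd⟩, hd⟩
  have h2 : IsClosed {y : Y | (y : X) ∈ D} := hDcl.preimage continuous_subtype_val
  have h3 : Bornology.IsBounded {y : Y | (y : X) ∈ D} := by
    obtain ⟨R, hR⟩ := isBounded_iff_forall_norm_le.mp hDbd
    exact isBounded_iff_forall_norm_le.mpr ⟨R, fun y hy => hR (y : X) hy⟩
  have h4 : Convex ℝ {y : Y | (y : X) ∈ D} := by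
    intro y1 hy1 y2 hy2 a b ha hb hab
    exact hDconv hy1 hy2 ha hb hab
  have h5 : Set.MapsTo (fun y : Y => if h : T (y : X) ∈ Y then (⟨T (y : X), h⟩ : Y) else 0)
      {y : Y | (y : X) ∈ D} {y : Y | (y : X) ∈ D} := by
    intro y hy
    show (((if h : T (y : X) ∈ Y then (⟨T (y : X), h⟩ : Y) else 0) : Y) : X) ∈ D
    rw [hTY y hy]
    exact hT hy
  have h6 : ∀ a ∈ {y : Y | (y : X) ∈ D}, ∀ b ∈ {y : Y | (y : X) ∈ D},
      ‖(fun y : Y => if h : T (y : X) ∈ Y then (⟨T (y : X), h⟩ : Y) else 0) a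
        - (fun y : Y => if h : T (y : X) ∈ Y then (⟨T (y : X), h⟩ : Y) else 0) b‖
        ≤ ‖a - b‖ := by
    intro a ha b hb
    show ‖(((if h : T (a : X) ∈ Y then (⟨T (a : X), h⟩ : Y) else 0)
        - (if h : T (b : X) ∈ Y then (⟨T (b : X), h⟩ : Y) else 0) : Y) : X)‖
        ≤ ‖((a - b : Y) : X)‖
    rw [Submodule.coe_sub, Submodule.coe_sub, hTY a ha, hTY b hb]
    exact hne _ ha _ hb
  obtain ⟨y, hyD, hyfix⟩ := hY _ h1 h2 h3 h4 _ h5 h6
  refine ⟨(y : X), hyD, ?_⟩
  have hyfix' : (if h : T (y : X) ∈ Y then (⟨T (y : X), h⟩ : Y) else 0) = y := hyfix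
  rw [← hTY y hyD, hyfix']

/-- The separable reduction. -/
theorem fpp_of_separable
    (hsep : ∀ (Y : Type u) [NormedAddCommGroup Y] [NormedSpace ℝ Y] [CompleteSpace Y]
      [TopologicalSpace.SeparableSpace Y], Reflexive Y → FPP Y)
    (X : Type u) [NormedAddCommGroup X] [NormedSpace ℝ X] [CompleteSpace X]
    (hX : Reflexive X) : FPP X := by
  intro C hCne hCcl hCbd hCconv T hT hne
  obtain ⟨x0, hx0⟩ := hCne
  have horbC : orb T x0 ⊆ C := orb_subset T x0 C hCconv hT hx0
  have hDC : closure (orb T x0) ⊆ C := closure_minimal horbC hCcl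
  obtain ⟨Y, hYdef⟩ : ∃ Y : Submodule ℝ X,
      Y = (Submodule.span ℝ (orb T x0)).topologicalClosure := ⟨_, rfl⟩
  have hYcl : IsClosed (Y : Set X) := by
    rw [hYdef]
    exact Submodule.isClosed_topologicalClosure _
  have hDY : closure (orb T x0) ⊆ (Y : Set X) := by
    refine closure_minimal ?_ hYcl
    rw [hYdef]
    exact fun a ha => Submodule.le_topologicalClosure _ (Submodule.subset_span ha)
  have hsepY : TopologicalSpace.IsSeparable (Y : Set X) := by
    rw [hYdef, Submodule.topologicalClosure_coe]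
    exact ((orb_countable T x0).isSeparable.span).closure
  have : CompleteSpace Y := hYcl.completeSpace_coe
  have : TopologicalSpace.SeparableSpace Y := hsepY.separableSpace
  have hYfpp : FPP Y := hsep Y (reflexive_closed_subspace hX Y hYcl)
  obtain ⟨x, hxD, hfix⟩ := fixed_point_in_subspace Y hYfpp (closure (orb T x0)) hDY
    ⟨x0, subset_closure (mem_orb_self T x0)⟩ isClosed_closure (hCbd.subset hDC)
    (convex_closure_orb T x0) T (mapsTo_closure_orb T x0 C hCcl horbC hne)
    (fun a ha b hb => hne a (hDC ha) b (hDC hb))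
  exact ⟨x, hDC hxD, hfix⟩

end Vale.Agent.Lib.P079
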