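import Mathlib
import Vale.Agent.Lib.P079.Defs
import Vale.Agent.Lib.P079.Embed
import Vale.Agent.Lib.P079.Main

/-!
Kirk's problem and the reflexive closed subspaces of the space of bounded real sequences.
-/

namespace Vale.Agent.Lib.P079

universe u

/-- If every reflexive closed subspace of the space of bounded real sequences has the fixed
point property, then every separable reflexive Banach space has it. -/
theorem fpp_of_bounded_sequences
    (h : ∀ Y : Submodule ℝ (BoundedContinuousFunction ℕ ℝ),
      IsClosed (Y : Set (BoundedContinuousFunction ℕ ℝ)) → Reflexive Y → FPP Y)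
    (X : Type u) [NormedAddCommGroup X] [NormedSpace ℝ X] [CompleteSpace X]
    [TopologicalSpace.SeparableSpace X] (hX : Reflexive X) : FPP X := by
  obtain ⟨J, hJ⟩ := exists_embedding_bounded_sequences X
  have hinj : Function.Injective J := by
    intro a b hab
    have h0 : ‖J (a - b)‖ = 0 := by rw [map_sub, hab, sub_self, norm_zero]
    rw [hJ] at h0
    exact sub_eq_zero.mp (norm_eq_zero.mp h0)
  have hiso : Isometry J := AddMonoidHomClass.isometry_of_norm J hJ
  have hcl : IsClosed ((LinearMap.range J : Submodule ℝ (BoundedContinuousFunction ℕ ℝ)) :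
      Set (BoundedContinuousFunction ℕ ℝ)) := by
    rw [LinearMap.coe_range]
    exact hiso.isClosedEmbedding.isClosed_range
  have he : ∃ e : X ≃ₗᵢ[ℝ] LinearMap.range J, True :=
    ⟨{ LinearEquiv.ofInjective J hinj with norm_map' := fun x => hJ x }, trivial⟩
  obtain ⟨e, -⟩ := he
  exact fpp_of_equiv e (h _ hcl (reflexive_of_equiv e hX))

/-- If every reflexive Banach space (in a given universe) has the fixed point property, then so
does every reflexive closed subspace of the space of bounded real sequences. -/
theorem bounded_sequences_of_fpp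
    (h : ∀ (X : Type u) [NormedAddCommGroup X] [NormedSpace ℝ X] [CompleteSpace X],
      Reflexive X → FPP X)
    (Y : Submodule ℝ (BoundedContinuousFunction ℕ ℝ))
    (hY : IsClosed (Y : Set (BoundedContinuousFunction ℕ ℝ))) (hr : Reflexive Y) : FPP Y := by
  have : CompleteSpace Y := hY.completeSpace_coe
  have he : ∃ e : ULift.{u} Y ≃ₗᵢ[ℝ] Y, True := ⟨LinearIsometryEquiv.ulift ℝ Y, trivial⟩
  obtain ⟨e, -⟩ := he
  exact fpp_of_equiv e.symm (h (ULift.{u} Y) (reflexive_of_equiv e.symm hr))

end Vale.Agent.Lib.P079
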